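import Mathlib

open MeasureTheory Set Filter Topology Complex

namespace Vale.Agent.P139.Helper761.KU

/-- `1 + i s` -/
noncomputable def q (s : ℝ) : ℂ := 1 + I * (s : ℂ)

lemma q_re (s : ℝ) : (q s).re = 1 := by simp [q]

lemma q_im (s : ℝ) : (q s).im = s := by simp [q]

lemma q_slit (s : ℝ) : q s ∈ Complex.slitPlane := by
  left; rw [q_re]; norm_num

lemma q_ne (s : ℝ) : q s ≠ 0 := Complex.slitPlane_ne_zero (q_slit s)

lemma norm_q_ge (s : ℝ) : 1 ≤ ‖q s‖ := by
  have := Complex.abs_re_le_norm (q s)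
  rw [q_re] at this
  simpa using this

lemma norm_q_le {s : ℝ} (hs : 0 ≤ s) : ‖q s‖ ≤ 1 + s := by
  unfold q
  calc ‖(1:ℂ) + I * s‖ ≤ ‖(1:ℂ)‖ + ‖I * (s:ℂ)‖ := norm_add_le _ _
    _ = 1 + s := by simp [abs_of_nonneg hs]

lemma abs_arg_q_le (s : ℝ) : |(q s).arg| ≤ Real.pi :=
  Complex.abs_arg_le_pi _

lemma continuous_q : Continuous q := by
  unfold q; fun_prop

/-- bound for powers of `1 + i s` -/
lemma norm_q_cpow_le {s : ℝ} (hs : 0 ≤ s) (c : ℂ) :
    ‖(q s) ^ c‖ ≤ (1 + s) ^ |c.re| * Real.exp (Real.pi * |c.im|) := by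
  rw [Complex.norm_cpow_of_ne_zero (q_ne s)]
  have h1 : ‖q s‖ ^ c.re ≤ (1 + s) ^ |c.re| := by
    calc ‖q s‖ ^ c.re ≤ ‖q s‖ ^ |c.re| :=
          Real.rpow_le_rpow_of_exponent_le (norm_q_ge s) (le_abs_self _)
      _ ≤ (1 + s) ^ |c.re| :=
          Real.rpow_le_rpow (by positivity) (norm_q_le hs) (abs_nonneg _)
  have h2 : (Real.exp ((q s).arg * c.im))⁻¹ ≤ Real.exp (Real.pi * |c.im|) := by
    rw [← Real.exp_neg]
    apply Real.exp_le_exp.mpr
    have := abs_arg_q_le s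
    calc -((q s).arg * c.im) ≤ |(q s).arg * c.im| := neg_le_abs _
      _ = |(q s).arg| * |c.im| := abs_mul _ _
      _ ≤ Real.pi * |c.im| := mul_le_mul_of_nonneg_right this (abs_nonneg _)
  rw [div_eq_mul_inv]
  exact mul_le_mul h1 h2 (by positivity) (by positivity)

/-- the integrand -/
noncomputable def G (a b z : ℂ) (s : ℝ) : ℂ :=
  Complex.exp (-(z * s)) * ((s : ℂ) ^ (a - 1) * (q s) ^ (b - a - 1))

/-- `F(a,b,z) = ∫_0^∞ e^{-z s} s^{a-1} (1+is)^{b-a-1} ds`; for `Re a > 0`, `Re z > 0`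
one has `Γ(a) U(a,b,-i z) = i^a F(a,b,z)`. -/
noncomputable def F (a b z : ℂ) : ℂ := ∫ s in Ioi (0:ℝ), G a b z s

/-- the dominating function -/
noncomputable def dom (α N δ : ℝ) (s : ℝ) : ℝ := s ^ (α - 1) * (1 + s) ^ N * Real.exp (-δ * s)

lemma dom_nonneg (α N δ : ℝ) {s : ℝ} (hs : 0 ≤ s) : 0 ≤ dom α N δ s := by
  unfold dom; positivity

lemma integrableOn_dom {α N δ : ℝ} (hα : 0 < α) (hN : 0 ≤ N) (hδ : 0 < δ) :
    IntegrableOn (dom α N δ) (Ioi 0) := by
  have h1 : IntegrableOn (fun s : ℝ => s ^ (α - 1) * Real.exp (-δ * s ^ (1:ℝ))) (Ioi 0) :=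
    integrableOn_rpow_mul_exp_neg_mul_rpow (by linarith) one_pos hδ
  have h2 : IntegrableOn (fun s : ℝ => s ^ (α - 1 + N) * Real.exp (-δ * s ^ (1:ℝ))) (Ioi 0) :=
    integrableOn_rpow_mul_exp_neg_mul_rpow (by linarith) one_pos hδ
  have h3 : IntegrableOn (fun s : ℝ => (2:ℝ) ^ N * (s ^ (α - 1) * Real.exp (-δ * s ^ (1:ℝ)) +
      s ^ (α - 1 + N) * Real.exp (-δ * s ^ (1:ℝ)))) (Ioi 0) := (h1.add h2).const_mul _
  refine h3.mono' ?_ ?_
  · have : ContinuousOn (dom α N δ) (Ioi 0) := by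
      unfold dom
      refine ContinuousOn.mul (ContinuousOn.mul ?_ ?_) ?_
      · exact fun x hx => (Real.continuousAt_rpow_const _ _ (Or.inl (ne_of_gt hx))).continuousWithinAt
      · refine ContinuousOn.rpow_const (by fun_prop) ?_
        intro x hx; left; have : 0 < x := hx; positivity
      · fun_prop
    exact this.aestronglyMeasurable measurableSet_Ioi
  · rw [ae_restrict_iff' measurableSet_Ioi]
    refine Eventually.of_forall fun s hs => ?_
    have hs0 : 0 < s := hs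
    rw [Real.norm_of_nonneg (dom_nonneg _ _ _ hs0.le)]
    unfold dom
    have hb : (1 + s) ^ N ≤ (2:ℝ) ^ N * (1 + s ^ N) := by
      rcases le_total s 1 with h | h
      · calc (1 + s) ^ N ≤ (2:ℝ) ^ N := Real.rpow_le_rpow (by positivity) (by linarith) hN
          _ ≤ (2:ℝ) ^ N * (1 + s ^ N) := by
            have : 0 ≤ s ^ N := by positivity
            nlinarith [show 0 < (2:ℝ) ^ N by positivity]
      · calc (1 + s) ^ N ≤ (2 * s) ^ N := Real.rpow_le_rpow (by positivity) (by linarith) hN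
          _ = (2:ℝ) ^ N * s ^ N := Real.mul_rpow (by norm_num) hs0.le
          _ ≤ (2:ℝ) ^ N * (1 + s ^ N) := by
            nlinarith [show 0 < (2:ℝ) ^ N by positivity]
    have hsN : s ^ (α - 1 + N) = s ^ (α - 1) * s ^ N := Real.rpow_add hs0 _ _
    rw [Real.rpow_one, hsN]
    calc s ^ (α - 1) * (1 + s) ^ N * Real.exp (-δ * s)
        ≤ s ^ (α - 1) * ((2:ℝ) ^ N * (1 + s ^ N)) * Real.exp (-δ * s) := by
          gcongr
      _ = (2:ℝ) ^ N * (s ^ (α - 1) * Real.exp (-δ * s) +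
          s ^ (α - 1) * s ^ N * Real.exp (-δ * s)) := by ring

/-- uniform bound for the integrand -/
lemma norm_G_le {a b z : ℂ} {α α' N δ M : ℝ} (h1 : α ≤ a.re) (h2 : a.re ≤ α')
    (hN : |(b - a - 1).re| ≤ N) (hM : |(b - a - 1).im| ≤ M) (hδ : δ ≤ z.re)
    {s : ℝ} (hs : 0 < s) :
    ‖G a b z s‖ ≤ Real.exp (Real.pi * M) * dom α (N + (α' - α)) δ s := by
  unfold G dom
  rw [norm_mul, norm_mul, Complex.norm_exp]
  have e1 : Real.exp ((-(z * (s:ℂ))).re) ≤ Real.exp (-δ * s) := by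
    apply Real.exp_le_exp.mpr
    simp only [Complex.neg_re, Complex.mul_re, Complex.ofReal_re, Complex.ofReal_im, mul_zero,
      sub_zero]
    nlinarith
  have e2 : ‖(s:ℂ) ^ (a - 1)‖ ≤ s ^ (α - 1) * (1 + s) ^ (α' - α) := by
    rw [Complex.norm_cpow_eq_rpow_re_of_pos hs]
    simp only [Complex.sub_re, Complex.one_re]
    have : s ^ (a.re - 1) = s ^ (α - 1) * s ^ (a.re - α) := by
      rw [← Real.rpow_add hs]; congr 1; ring
    rw [this]
    have h3 : s ^ (a.re - α) ≤ (1 + s) ^ (a.re - α) :=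
      Real.rpow_le_rpow hs.le (by linarith) (by linarith)
    have h4 : (1 + s) ^ (a.re - α) ≤ (1 + s) ^ (α' - α) :=
      Real.rpow_le_rpow_of_exponent_le (by linarith) (by linarith)
    gcongr
    exact h3.trans h4
  have e3 : ‖(q s) ^ (b - a - 1)‖ ≤ (1 + s) ^ N * Real.exp (Real.pi * M) := by
    refine (norm_q_cpow_le hs.le _).trans ?_
    have h5 : (1 + s) ^ |(b - a - 1).re| ≤ (1 + s) ^ N :=
      Real.rpow_le_rpow_of_exponent_le (by linarith) hN
    have h6 : Real.exp (Real.pi * |(b - a - 1).im|) ≤ Real.exp (Real.pi * M) := by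
      apply Real.exp_le_exp.mpr
      exact mul_le_mul_of_nonneg_left hM Real.pi_pos.le
    exact mul_le_mul h5 h6 (by positivity) (by positivity)
  have hadd : (1 + s) ^ (N + (α' - α)) = (1 + s) ^ N * (1 + s) ^ (α' - α) :=
    Real.rpow_add (by linarith) _ _
  calc Real.exp ((-(z * (s:ℂ))).re) * (‖(s:ℂ) ^ (a - 1)‖ * ‖(q s) ^ (b - a - 1)‖)
      ≤ Real.exp (-δ * s) * ((s ^ (α - 1) * (1 + s) ^ (α' - α)) *
          ((1 + s) ^ N * Real.exp (Real.pi * M))) := by
        gcongr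
    _ = Real.exp (Real.pi * M) * (s ^ (α - 1) * (1 + s) ^ (N + (α' - α)) *
          Real.exp (-δ * s)) := by rw [hadd]; ring

lemma continuousOn_G (a b z : ℂ) : ContinuousOn (G a b z) (Ioi 0) := by
  unfold G
  refine ContinuousOn.mul (by fun_prop) (ContinuousOn.mul ?_ ?_)
  · intro s hs
    have hs0 : 0 < s := hs
    have : ContinuousAt (fun s : ℝ => (s:ℂ) ^ (a - 1)) s := by
      have h := continuousAt_cpow_const (b := a - 1) (a := (s:ℂ)) (Or.inl (by simpa using hs0))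
      exact ContinuousAt.comp (f := fun s : ℝ => (s:ℂ)) (g := fun x : ℂ => x ^ (a - 1)) h
        Complex.continuous_ofReal.continuousAt
    exact this.continuousWithinAt
  · intro s hs
    have : ContinuousAt (fun s : ℝ => (q s) ^ (b - a - 1)) s := by
      have h := continuousAt_cpow_const (b := b - a - 1) (a := q s) (q_slit s)
      exact ContinuousAt.comp (f := q) (g := fun x : ℂ => x ^ (b - a - 1)) h
        continuous_q.continuousAt
    exact this.continuousWithinAt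

lemma aesm_G (a b z : ℂ) : AEStronglyMeasurable (G a b z) (volume.restrict (Ioi 0)) :=
  (continuousOn_G a b z).aestronglyMeasurable measurableSet_Ioi

lemma integrableOn_G {a b z : ℂ} (ha : 0 < a.re) (hz : 0 < z.re) :
    IntegrableOn (G a b z) (Ioi 0) := by
  have h := (integrableOn_dom (N := |(b - a - 1).re| + (a.re - a.re)) ha
    (by simp) hz).const_mul (Real.exp (Real.pi * |(b - a - 1).im|))
  refine h.mono' (aesm_G a b z) ?_
  rw [ae_restrict_iff' measurableSet_Ioi]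
  exact Eventually.of_forall fun s hs => norm_G_le le_rfl le_rfl le_rfl le_rfl le_rfl hs

lemma mul_G (a b z : ℂ) {s : ℝ} (hs : 0 < s) : (s:ℂ) * G a b z s = G (a + 1) (b + 1) z s := by
  unfold G
  have h0 : (s:ℂ) ≠ 0 := by exact_mod_cast hs.ne'
  have h1 : (s:ℂ) ^ (a + 1 - 1) = (s:ℂ) * (s:ℂ) ^ (a - 1) := by
    rw [show a + 1 - 1 = (a - 1) + 1 by ring, Complex.cpow_add _ _ h0, Complex.cpow_one]
    ring
  rw [h1, show b + 1 - (a + 1) - 1 = b - a - 1 by ring]
  ring

/-- `∂F/∂z = -F(a+1,b+1,z)` -/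
theorem hasDerivAt_F_z {a b z : ℂ} (ha : 0 < a.re) (hz : 0 < z.re) :
    HasDerivAt (fun z => F a b z) (-F (a + 1) (b + 1) z) z := by
  set δ : ℝ := z.re / 2 with hδ
  have hδ0 : 0 < δ := by positivity
  have hnb : {w : ℂ | δ < w.re} ∈ 𝓝 z := by
    apply (isOpen_lt continuous_const Complex.continuous_re).mem_nhds
    show δ < z.re
    rw [hδ]; linarith
  set N : ℝ := |(b + 1 - (a + 1) - 1).re| with hN
  set M : ℝ := |(b + 1 - (a + 1) - 1).im| with hM
  have key := hasDerivAt_integral_of_dominated_loc_of_deriv_le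
    (μ := volume.restrict (Ioi (0:ℝ))) (F := fun (w : ℂ) (s : ℝ) => G a b w s)
    (F' := fun (w : ℂ) (s : ℝ) => -G (a + 1) (b + 1) w s) (x₀ := z) (s := {w : ℂ | δ < w.re})
    (bound := fun s => Real.exp (Real.pi * M) * dom (a + 1).re (N + ((a + 1).re - (a + 1).re)) δ s)
    hnb (Eventually.of_forall fun w => aesm_G a b w) (integrableOn_G ha hz)
    ((aesm_G (a + 1) (b + 1) z).neg) ?_ ?_ ?_
  · have := key.2
    rw [integral_neg] at this
    exact this
  · rw [ae_restrict_iff' measurableSet_Ioi]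
    refine Eventually.of_forall fun s hs w hw => ?_
    rw [norm_neg]
    exact norm_G_le le_rfl le_rfl le_rfl le_rfl (le_of_lt hw) hs
  · refine (integrableOn_dom ?_ ?_ hδ0).const_mul _
    · simp only [Complex.add_re, Complex.one_re]; linarith
    · simp only [sub_self, add_zero]; exact abs_nonneg _
  · rw [ae_restrict_iff' measurableSet_Ioi]
    refine Eventually.of_forall fun s hs w hw => ?_
    have h1 : HasDerivAt (fun w : ℂ => Complex.exp (-(w * s))) (Complex.exp (-(w * s)) * (-(1 * s)))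
        w := ((((hasDerivAt_id w).mul_const (s:ℂ)).neg).cexp)
    have h2 := h1.mul_const ((s : ℂ) ^ (a - 1) * (q s) ^ (b - a - 1))
    have h3 : -G (a + 1) (b + 1) w s = Complex.exp (-(w * s)) * (-(1 * s)) *
        ((s : ℂ) ^ (a - 1) * (q s) ^ (b - a - 1)) := by
      rw [← mul_G a b w hs]
      unfold G
      ring
    show HasDerivAt (fun w => G a b w s) (-G (a + 1) (b + 1) w s) w
    rw [h3]
    exact h2

lemma continuousAt_F_z {a b z : ℂ} (ha : 0 < a.re) (hz : 0 < z.re) :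
    ContinuousAt (fun z => F a b z) z := (hasDerivAt_F_z ha hz).continuousAt

theorem differentiableOn_F_z {a b : ℂ} (ha : 0 < a.re) :
    DifferentiableOn ℂ (fun z => F a b z) {z : ℂ | 0 < z.re} :=
  fun _ hz => (hasDerivAt_F_z ha hz).differentiableAt.differentiableWithinAt

end Vale.Agent.P139.Helper761.KU
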