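import Vale.Agent.P139.Helper761.KU.Basic

open MeasureTheory Set Filter Topology Complex

namespace Vale.Agent.P139.Helper761.KU

/-- `log s - log (1+is)` -/
noncomputable def Lg (s : ℝ) : ℂ := Complex.log (s : ℂ) - Complex.log (q s)

lemma norm_Lg_le {ε : ℝ} (hε : 0 < ε) {s : ℝ} (hs : 0 < s) :
    ‖Lg s‖ ≤ (1 / ε + 2 + Real.pi) * (s ^ (-ε) * (1 + s) ^ (1 + ε)) := by
  have h1 : ‖Complex.log (s:ℂ)‖ ≤ s ^ (-ε) / ε + s := by
    have : Complex.log (s:ℂ) = ((Real.log s : ℝ) : ℂ) := by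
      rw [Complex.ofReal_log hs.le]
    rw [this, Complex.norm_real, Real.norm_eq_abs, abs_le]
    constructor
    · have h2 := Real.log_le_rpow_div (x := s⁻¹) (by positivity) hε
      rw [Real.log_inv, Real.inv_rpow hs.le, ← Real.rpow_neg hs.le] at h2
      linarith
    · have h2 : Real.log s ≤ s := (Real.log_le_sub_one_of_pos hs).trans (by linarith)
      have : 0 ≤ s ^ (-ε) / ε := by positivity
      linarith
  have h2 : ‖Complex.log (q s)‖ ≤ s + Real.pi := by
    have hre : (Complex.log (q s)).re = Real.log ‖q s‖ := Complex.log_re _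
    have him : (Complex.log (q s)).im = (q s).arg := Complex.log_im _
    refine (Complex.norm_le_abs_re_add_abs_im _).trans ?_
    rw [hre, him]
    refine add_le_add ?_ (abs_arg_q_le s)
    rw [abs_of_nonneg (Real.log_nonneg (norm_q_ge s))]
    have h3 : Real.log ‖q s‖ ≤ ‖q s‖ - 1 := Real.log_le_sub_one_of_pos (by linarith [norm_q_ge s])
    linarith [norm_q_le hs.le]
  have h3 : s ^ (-ε) ≤ s ^ (-ε) * (1 + s) ^ (1 + ε) := by
    have : 1 ≤ (1 + s) ^ (1 + ε) := Real.one_le_rpow (by linarith) (by linarith)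
    nlinarith [show 0 < s ^ (-ε) by positivity]
  have h4 : (1:ℝ) + s ≤ s ^ (-ε) * (1 + s) ^ (1 + ε) := by
    have e1 : (1 + s) ^ (1 + ε) = (1 + s) * (1 + s) ^ ε := by
      rw [Real.rpow_add (by linarith), Real.rpow_one]
    have e2 : 1 ≤ s ^ (-ε) * (1 + s) ^ ε := by
      rw [Real.rpow_neg hs.le, ← div_eq_inv_mul, one_le_div (by positivity)]
      exact Real.rpow_le_rpow hs.le (by linarith) hε.le
    rw [e1]
    nlinarith
  have h5 : 0 ≤ 1 / ε := by positivity
  have hpi := Real.pi_pos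
  calc ‖Lg s‖ ≤ ‖Complex.log (s:ℂ)‖ + ‖Complex.log (q s)‖ := norm_sub_le _ _
    _ ≤ (s ^ (-ε) / ε + s) + (s + Real.pi) := add_le_add h1 h2
    _ = (1 / ε) * s ^ (-ε) + (2 * s + Real.pi) := by ring
    _ ≤ (1 / ε) * (s ^ (-ε) * (1 + s) ^ (1 + ε)) +
        (2 + Real.pi) * (s ^ (-ε) * (1 + s) ^ (1 + ε)) := by
        refine add_le_add (mul_le_mul_of_nonneg_left h3 h5) ?_
        calc 2 * s + Real.pi ≤ (2 + Real.pi) * (1 + s) := by nlinarith
          _ ≤ _ := mul_le_mul_of_nonneg_left h4 (by positivity)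
    _ = _ := by ring

lemma dom_shift {α N δ ε : ℝ} {s : ℝ} (hs : 0 < s) :
    dom α N δ s * (s ^ (-ε) * (1 + s) ^ (1 + ε)) = dom (α - ε) (N + (1 + ε)) δ s := by
  unfold dom
  have e1 : s ^ (α - ε - 1) = s ^ (α - 1) * s ^ (-ε) := by
    rw [← Real.rpow_add hs]; congr 1; ring
  have e2 : (1 + s) ^ (N + (1 + ε)) = (1 + s) ^ N * (1 + s) ^ (1 + ε) :=
    Real.rpow_add (by linarith) _ _
  rw [e1, e2]; ring

lemma continuousOn_Lg : ContinuousOn Lg (Ioi 0) := by
  unfold Lg
  refine ContinuousOn.sub ?_ ?_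
  · intro s hs
    have hs0 : 0 < s := hs
    exact (Complex.continuous_ofReal.continuousAt.clog (Or.inl (by simpa using hs0))).continuousWithinAt
  · intro s hs
    exact (continuous_q.continuousAt.clog (q_slit s)).continuousWithinAt

/-- the `a`-derivative of `F` -/
noncomputable def Fa (a b z : ℂ) : ℂ := ∫ s in Ioi (0:ℝ), G a b z s * Lg s

lemma aesm_GL (a b z : ℂ) :
    AEStronglyMeasurable (fun s => G a b z s * Lg s) (volume.restrict (Ioi 0)) :=
  ((continuousOn_G a b z).mul continuousOn_Lg).aestronglyMeasurable measurableSet_Ioi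

theorem hasDerivAt_G_a (a b z : ℂ) {s : ℝ} (hs : 0 < s) :
    HasDerivAt (fun a => G a b z s) (G a b z s * Lg s) a := by
  have h0 : (s:ℂ) ≠ 0 := by exact_mod_cast hs.ne'
  have h1 : HasDerivAt (fun a : ℂ => (s:ℂ) ^ (a - 1)) ((s:ℂ) ^ (a - 1) * Complex.log s * 1) a :=
    ((hasDerivAt_id a).sub_const 1).const_cpow (Or.inl h0)
  have h2 : HasDerivAt (fun a : ℂ => (q s) ^ (b - a - 1))
      ((q s) ^ (b - a - 1) * Complex.log (q s) * (-1)) a := by
    have : HasDerivAt (fun a : ℂ => b - a - 1) (-1) a := by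
      simpa using ((hasDerivAt_id a).const_sub b).sub_const 1
    exact this.const_cpow (Or.inl (q_ne s))
  have h3 := (h1.mul h2).const_mul (Complex.exp (-(z * s)))
  have h4 : G a b z s * Lg s = Complex.exp (-(z * s)) * ((s:ℂ) ^ (a - 1) * Complex.log s * 1 *
      (q s) ^ (b - a - 1) + (s:ℂ) ^ (a - 1) * ((q s) ^ (b - a - 1) * Complex.log (q s) * (-1))) := by
    unfold G Lg; ring
  show HasDerivAt (fun a => G a b z s) (G a b z s * Lg s) a
  rw [h4]
  exact h3

/-- `F` is holomorphic in `a` (with `b`, `z` fixed) -/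
theorem hasDerivAt_F_a {a b z : ℂ} (ha : 0 < a.re) (hz : 0 < z.re) :
    HasDerivAt (fun a => F a b z) (Fa a b z) a := by
  set α : ℝ := a.re / 2 with hα
  have hα0 : 0 < α := by positivity
  set α' : ℝ := a.re + 1 with hα'
  set N : ℝ := |(b - a - 1).re| + 1 + a.re with hN
  set M : ℝ := |(b - a - 1).im| + 1 with hM
  set ε : ℝ := a.re / 4 with hε
  have hε0 : 0 < ε := by positivity
  set S : Set ℂ := {x : ℂ | α < x.re ∧ x.re < α' ∧ ‖x - a‖ < 1} with hS
  have hnb : S ∈ 𝓝 a := by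
    have ho : IsOpen S := by
      rw [hS]
      simp only [Set.ofPred_and]
      refine IsOpen.inter ?_ (IsOpen.inter ?_ ?_)
      · exact isOpen_lt continuous_const Complex.continuous_re
      · exact isOpen_lt Complex.continuous_re continuous_const
      · exact isOpen_lt (by fun_prop) continuous_const
    apply ho.mem_nhds
    refine ⟨?_, ?_, ?_⟩
    · show α < a.re; rw [hα]; linarith
    · show a.re < α'; rw [hα']; linarith
    · simp
  have hbd : ∀ x ∈ S, |(b - x - 1).re| ≤ N ∧ |(b - x - 1).im| ≤ M := by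
    intro x hx
    obtain ⟨h1, h2, h3⟩ := hx
    have hr : |(x - a).re| ≤ 1 := (Complex.abs_re_le_norm _).trans h3.le
    have hi : |(x - a).im| ≤ 1 := (Complex.abs_im_le_norm _).trans h3.le
    have er : (b - x - 1).re = (b - a - 1).re - (x - a).re := by simp; ring
    have ei : (b - x - 1).im = (b - a - 1).im - (x - a).im := by simp
    constructor
    · rw [er, hN]
      have := abs_sub (b - a - 1).re (x - a).re
      linarith
    · rw [ei, hM]
      have := abs_sub (b - a - 1).im (x - a).im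
      linarith
  have key := hasDerivAt_integral_of_dominated_loc_of_deriv_le
    (μ := volume.restrict (Ioi (0:ℝ))) (F := fun (x : ℂ) (s : ℝ) => G x b z s)
    (F' := fun (x : ℂ) (s : ℝ) => G x b z s * Lg s) (x₀ := a) (s := S)
    (bound := fun s => Real.exp (Real.pi * M) * (1 / ε + 2 + Real.pi) *
      dom (α - ε) (N + (α' - α) + (1 + ε)) z.re s)
    hnb (Eventually.of_forall fun x => aesm_G x b z) (integrableOn_G ha hz)
    (aesm_GL a b z) ?_ ?_ ?_
  · exact key.2
  · rw [ae_restrict_iff' measurableSet_Ioi]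
    refine Eventually.of_forall fun s hs x hx => ?_
    obtain ⟨h1, h2⟩ := hbd x hx
    have hs0 : 0 < s := hs
    rw [norm_mul]
    have b1 := norm_G_le (a := x) (b := b) (z := z) (α := α) (α' := α') (N := N) (δ := z.re)
      (M := M) hx.1.le hx.2.1.le h1 h2 le_rfl hs0
    have b2 := norm_Lg_le hε0 hs0
    calc ‖G x b z s‖ * ‖Lg s‖ ≤ (Real.exp (Real.pi * M) * dom α (N + (α' - α)) z.re s) *
          ((1 / ε + 2 + Real.pi) * (s ^ (-ε) * (1 + s) ^ (1 + ε))) :=
          mul_le_mul b1 b2 (norm_nonneg _)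
            (mul_nonneg (Real.exp_pos _).le (dom_nonneg _ _ _ hs0.le))
      _ = Real.exp (Real.pi * M) * (1 / ε + 2 + Real.pi) *
          (dom α (N + (α' - α)) z.re s * (s ^ (-ε) * (1 + s) ^ (1 + ε))) := by ring
      _ = _ := by rw [dom_shift hs0]
  · refine (integrableOn_dom ?_ ?_ hz).const_mul _
    · rw [hα, hε]; linarith
    · have : 0 ≤ |(b - a - 1).re| := abs_nonneg _
      rw [hN, hα', hα, hε]; linarith
  · rw [ae_restrict_iff' measurableSet_Ioi]
    refine Eventually.of_forall fun s hs x _ => ?_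
    exact hasDerivAt_G_a x b z hs

theorem differentiableOn_F_a {b z : ℂ} (hz : 0 < z.re) :
    DifferentiableOn ℂ (fun a => F a b z) {a : ℂ | 0 < a.re} :=
  fun _ ha => (hasDerivAt_F_a ha hz).differentiableAt.differentiableWithinAt

/-- joint continuity in `(a,b,z)` -/
theorem continuousAt_F {a b z : ℂ} (ha : 0 < a.re) (hz : 0 < z.re) :
    ContinuousAt (fun p : ℂ × ℂ × ℂ => F p.1 p.2.1 p.2.2) (a, b, z) := by
  set α : ℝ := a.re / 2 with hα
  have hα0 : 0 < α := by positivity
  set α' : ℝ := a.re + 1 with hα'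
  set δ : ℝ := z.re / 2 with hδ
  have hδ0 : 0 < δ := by positivity
  set N : ℝ := |(b - a - 1).re| + 1 with hN
  set M : ℝ := |(b - a - 1).im| + 1 with hM
  set S : Set (ℂ × ℂ × ℂ) := {p | α < p.1.re ∧ p.1.re < α' ∧ δ < p.2.2.re ∧
    |(p.2.1 - p.1 - 1).re| < N ∧ |(p.2.1 - p.1 - 1).im| < M} with hS
  have hnb : S ∈ 𝓝 (a, b, z) := by
    have ho : IsOpen S := by
      rw [hS]
      simp only [Set.ofPred_and]
      refine IsOpen.inter ?_ (IsOpen.inter ?_ (IsOpen.inter ?_ (IsOpen.inter ?_ ?_)))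
      all_goals exact isOpen_lt (by fun_prop) (by fun_prop)
    apply ho.mem_nhds
    refine ⟨?_, ?_, ?_, ?_, ?_⟩
    · show α < a.re; rw [hα]; linarith
    · show a.re < α'; rw [hα']; linarith
    · show δ < z.re; rw [hδ]; linarith
    · show |(b - a - 1).re| < N; rw [hN]; linarith
    · show |(b - a - 1).im| < M; rw [hM]; linarith
  unfold F
  refine continuousAt_of_dominated (bound := fun s => Real.exp (Real.pi * M) *
    dom α (N + (α' - α)) δ s) ?_ ?_ ?_ ?_
  · exact Eventually.of_forall fun p => aesm_G _ _ _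
  · filter_upwards [hnb] with p hp
    rw [ae_restrict_iff' measurableSet_Ioi]
    refine Eventually.of_forall fun s hs => ?_
    exact norm_G_le hp.1.le hp.2.1.le hp.2.2.2.1.le hp.2.2.2.2.le hp.2.2.1.le hs
  · refine (integrableOn_dom hα0 ?_ hδ0).const_mul _
    have : 0 ≤ |(b - a - 1).re| := abs_nonneg _
    rw [hN, hα', hα]; linarith
  · rw [ae_restrict_iff' measurableSet_Ioi]
    refine Eventually.of_forall fun s hs => ?_
    have hs0 : 0 < s := hs
    have h0 : (s:ℂ) ≠ 0 := by exact_mod_cast hs0.ne'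
    unfold G
    refine ContinuousAt.mul ?_ (ContinuousAt.mul ?_ ?_)
    · fun_prop
    · exact ContinuousAt.const_cpow (by fun_prop) (Or.inl h0)
    · exact ContinuousAt.const_cpow (by fun_prop) (Or.inl (q_ne s))

end Vale.Agent.P139.Helper761.KU
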